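import Vale.Agent.P181.DG.Defs
import Vale.Agent.P181.SZT0.Tr

set_option autoImplicit false

/-!
# P181, DG, D0: transport of `PKT` along a bijection of the large columns
-/

open MvPolynomial

namespace Vale.Agent.P181.DG0

open Vale.Agent.P181.T4 (HW rowOp rowOp_apply mem_HW)
open Vale.Agent.P181.SZT0 (rc inj_pr rc_inj coeff_rc rc_mem_HW exists_equiv)
open Vale.Agent.P181.DG

/-- Membership in `PKT`. -/
lemma mem_PKT {m S : ℕ} {σ : Type} [Fintype σ] {d : σ → ℕ} {t : ℕ} {mu : Fin m → ℕ}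
    {f : MvPolynomial (Fin m × (σ ⊕ Fin t)) ℂ} :
    f ∈ PKT m S σ d t mu ↔ f ∈ HW m (σ ⊕ Fin t) mu ∧
    (∀ v, coeff v f ≠ 0 → (∀ j : σ, ∑ i, v (i, Sum.inl j) = d j) ∧
      ∀ j : Fin t, ∑ i, v (i, Sum.inr j) < S) ∧
    (∀ (e : Equiv.Perm σ) (s : Equiv.Perm (Fin t)), (∀ j, d (e j) = d j) →
      rename (fun p : Fin m × (σ ⊕ Fin t) => (p.1, Sum.map e s p.2)) f = f) ∧
    ∀ i, ∑ j : Fin t, pderiv (i, (Sum.inr j : σ ⊕ Fin t)) f = 0 := Iff.rfl

instance finiteDimensional_PKT (m S : ℕ) (σ : Type) [Fintype σ] (d : σ → ℕ) (t : ℕ)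
    (mu : Fin m → ℕ) : FiniteDimensional ℂ (PKT m S σ d t mu) :=
  Submodule.finiteDimensional_of_le (S₂ := HW m (σ ⊕ Fin t) mu) fun _ h => h.1

section equiv

variable {m S : ℕ} {σ τ : Type} [Fintype σ] [Fintype τ]

/-- The change of large columns. -/
def ec (t : ℕ) (e : τ ≃ σ) : τ ⊕ Fin t ≃ σ ⊕ Fin t := Equiv.sumCongr e (Equiv.refl _)

omit [Fintype σ] [Fintype τ] in
lemma ec_inl {t : ℕ} (e : τ ≃ σ) (j : τ) : ec t e (Sum.inl j) = Sum.inl (e j) := rfl

omit [Fintype σ] [Fintype τ] in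
lemma ec_inr {t : ℕ} (e : τ ≃ σ) (j : Fin t) : ec t e (Sum.inr j) = Sum.inr j := rfl

/-- **Transport.** -/
lemma rc_mem_PKT {t : ℕ} (e : τ ≃ σ) {d : σ → ℕ} {d' : τ → ℕ} (hd : ∀ j, d (e j) = d' j)
    {mu : Fin m → ℕ} {f : MvPolynomial (Fin m × (τ ⊕ Fin t)) ℂ}
    (hf : f ∈ PKT m S τ d' t mu) : rc m (ec t e) f ∈ PKT m S σ d t mu := by
  rw [mem_PKT] at hf ⊢
  obtain ⟨h0, h1, h2, h3⟩ := hf
  have hι : Function.Injective (ec t e) := (ec t e).injective
  refine ⟨(rc_mem_HW hι).2 h0, ?_, ?_, ?_⟩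
  · intro v hv
    obtain ⟨u, hu, h4, -⟩ := coeff_rc hι hv
    obtain ⟨h5, h6⟩ := h1 u hu
    constructor
    · intro j
      obtain ⟨k, rfl⟩ := e.surjective j
      rw [hd, ← h5 k]
      exact Finset.sum_congr rfl fun i _ => h4 i (Sum.inl k)
    · intro j
      have h7 : ∑ i, v (i, Sum.inr j) = ∑ i, u (i, Sum.inr j) :=
        Finset.sum_congr rfl fun i _ => h4 i (Sum.inr j)
      rw [h7]
      exact h6 j
  · intro ε s hε
    have h4 := h2 ((e.trans ε).trans e.symm) s (fun j => by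
      rw [← hd, ← hd]
      simp only [Equiv.trans_apply, Equiv.apply_symm_apply, hε])
    have h5 : rename (fun p : Fin m × (σ ⊕ Fin t) => (p.1, Sum.map ε s p.2)) (rc m (ec t e) f)
        = rc m (ec t e) (rename (fun p : Fin m × (τ ⊕ Fin t) =>
          (p.1, Sum.map ((e.trans ε).trans e.symm) s p.2)) f) := by
      rw [rc, rename_rename, rename_rename]
      congr 2
      funext p
      obtain ⟨i, j | j⟩ := p
      · simp only [Function.comp_apply, ec_inl, Sum.map_inl, Equiv.trans_apply,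
          Equiv.apply_symm_apply]
      · simp only [Function.comp_apply, ec_inr, Sum.map_inr]
    rw [h5, h4]
  · intro i
    have h4 : ∀ j : Fin t, pderiv (i, (Sum.inr j : σ ⊕ Fin t)) (rc m (ec t e) f)
        = rc m (ec t e) (pderiv (i, (Sum.inr j : τ ⊕ Fin t)) f) := fun j =>
      pderiv_rename (inj_pr hι) (i, Sum.inr j) f
    rw [Finset.sum_congr rfl fun j _ => h4 j, ← map_sum, h3 i, map_zero]

/-- **Transport of dimensions.** -/
theorem finrank_equiv (e : τ ≃ σ) {d : σ → ℕ} {d' : τ → ℕ} (hd : ∀ j, d (e j) = d' j) (t : ℕ)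
    (mu : Fin m → ℕ) :
    Module.finrank ℂ (PKT m S σ d t mu) = Module.finrank ℂ (PKT m S τ d' t mu) := by
  have h1 : PKT m S σ d t mu = (PKT m S τ d' t mu).map (rc m (ec t e)).toLinearMap := by
    apply le_antisymm
    · intro g hg
      refine ⟨rc m (ec t e.symm) g, ?_, ?_⟩
      · exact rc_mem_PKT e.symm (fun j => by rw [← hd, Equiv.apply_symm_apply]) hg
      · have h2 : rc m (ec t e) (rc m (ec t e.symm) g) = g := by
          rw [rc, rc, rename_rename]
          have h3 : (fun p : Fin m × (τ ⊕ Fin t) => (p.1, ec t e p.2)) ∘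
              (fun p : Fin m × (σ ⊕ Fin t) => (p.1, ec t e.symm p.2)) = id := by
            funext p
            obtain ⟨i, j | j⟩ := p
            · simp only [Function.comp_apply, ec_inl, Equiv.apply_symm_apply, id]
            · simp only [Function.comp_apply, ec_inr, id]
          rw [h3, rename_id_apply]
        exact h2
    · rintro _ ⟨f, hf, rfl⟩
      exact rc_mem_PKT e hd hf
  rw [h1]
  exact (Submodule.equivMapOfInjective (rc m (ec t e)).toLinearMap
    (rc_inj (ec t e).injective) _).finrank_eq.symm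

end equiv

/-- **(D0)** Transport. -/
theorem transT : TransT := by
  intro m S σ _ d t mu
  classical
  set k : Multiset ℕ := Finset.univ.val.map d with hk
  have h4 : (Finset.univ.val.map fun j : Fin k.toList.length => k.toList.get j) = k := by
    rw [Fin.univ_val_map]
    rw [List.ofFn_get, Multiset.coe_toList]
  obtain ⟨e, he⟩ := exists_equiv (fun j : Fin k.toList.length => k.toList.get j) d
    (h4.trans hk)
  rw [NT]
  exact finrank_equiv e he t mu

end Vale.Agent.P181.DG0
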